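import Vale.Agent.P028.EV.Main

/-!
Weak inhomogeneous Duffin-Schaeffer statement in the Erdős-Vaaler range, for every real shift.
-/

open MeasureTheory Filter

theorem Vale.Agent.Results.P028.ErdosVaaler.result :
    ∀ (γ C : ℝ) (ψ : ℕ → ℝ), 0 < C → (∀ q, 0 ≤ ψ q) →
      (¬ Summable fun q : ℕ => (q.totient : ℝ) / q * min (ψ q) (C / q)) →
        volume ({x : ℝ |
          {q : ℕ | 0 < q ∧ ∃ a : ℤ, |(q : ℝ) * x - a - γ| < ψ q}.Infinite}ᶜ) = 0 := by
  intro γ C ψ hC hψ hdiv
  refine measure_mono_null (Set.compl_subset_compl.mpr fun x hx => hx.mono ?_)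
    (Vale.Agent.P028.EV.erdosVaaler γ (fun q : ℕ => min (ψ q) (C / q))
      (fun q => le_min (hψ q) (by positivity)) (C := C) (fun q => ?_)
      fun hs => hdiv (hs.congr fun q => ?_))
  · rcases Nat.eq_zero_or_pos q with rfl | hq
    · simpa using hC.le
    · calc (q : ℝ) * min (ψ q) (C / q) ≤ (q : ℝ) * (C / q) :=
            mul_le_mul_of_nonneg_left (min_le_right _ _) (Nat.cast_nonneg q)
        _ = C := by
            have : (q : ℝ) ≠ 0 := by positivity
            field_simp
  · ring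
  · rintro q ⟨hq, a, ha⟩
    exact ⟨hq, a, ha.trans_le (min_le_left _ _)⟩
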