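import Vale.Agent.P028.Blocks

/-!
Weak inhomogeneous Duffin-Schaeffer statement on blocks of divisors of a common multiple,
for arbitrary shifts, which may vary with the denominator.
-/

open MeasureTheory Filter

theorem Vale.Agent.Results.P028.LcmBlocks.result :
    ∀ (γ ψ : ℕ → ℝ), (∀ q, 0 ≤ ψ q) →
      ∀ (S : ℕ → Finset ℕ) (N : ℕ → ℕ), (∀ k, 0 < N k) → (∀ k, ∀ q ∈ S k, q ∣ N k) →
        (∀ m : ℕ, ∀ᶠ k in atTop, ∀ q ∈ S k, m < q) →
        ∀ δ : ℝ, 0 < δ →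
          (∃ᶠ k in atTop,
            δ ≤ ∑ q ∈ S k, (q.totient : ℝ) * min (ψ q / q) (1 / (2 * (N k : ℝ)))) →
          volume ({x : ℝ |
            {q : ℕ | 0 < q ∧ ∃ a : ℤ, |(q : ℝ) * x - a - γ q| < ψ q}.Infinite}ᶜ) = 0 :=
  fun γ ψ hψ S N hN hdvd hlarge δ hδ hsum =>
    Vale.Agent.P028.full_measure γ ψ hψ S N hN hdvd hlarge δ hδ hsum
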