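import Vale.Agent.P028.DS.Main

/-!
Weak inhomogeneous Duffin-Schaeffer statement on typical denominators, for every real shift.
-/

open MeasureTheory

open Classical in
theorem Vale.Agent.Results.P028.TypicalSupport.result :
    ∀ (γ τ C : ℝ) (ψ : ℕ → ℝ), 0 < τ → (∀ q, 0 ≤ ψ q) →
      (¬ Summable fun q : ℕ =>
        if ∑ p ∈ q.primeFactors, Real.log p ^ τ / p ≤ C then (q.totient : ℝ) / q * ψ q else 0) →
        volume ({x : ℝ |
          {q : ℕ | 0 < q ∧ ∃ a : ℤ, |(q : ℝ) * x - a - γ| < ψ q}.Infinite}ᶜ) = 0 :=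
  fun γ τ C ψ hτ hψ hdiv => Vale.Agent.P028.DS.typical_support γ τ C ψ hτ hψ hdiv
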